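import Vale.Agent.Lib.P343.Witness

/-!
A quadratic lower bound for complementing nondeterministic automata by two-way
nondeterministic automata: for every `n ≥ 3` there is a one-way nondeterministic automaton
with `n + 1` states over a one-letter alphabet such that every two-way nondeterministic
automaton recognizing the complement has at least `n ^ 2 - 3 * n + 1` states.
-/

namespace Vale.Agent.Results.P343.QuadraticComplement

open Vale.Agent.Lib.P343

theorem result (n : ℕ) (hn : 3 ≤ n) :
    ∃ A : TwoNFA Unit (Fin (n + 1)), A.OneWay ∧
      ∀ (Q : Type) [Fintype Q] (B : TwoNFA Unit Q),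
        B.language = (A.language)ᶜ → n ^ 2 + 1 ≤ Fintype.card Q + 3 * n :=
  quadratic_complement n hn

end Vale.Agent.Results.P343.QuadraticComplement
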